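import Vale.Agent.P242.Stmt

/-! P242 Defs (owner helper5, overview notes/P242.md): definitions used in the proof. -/

namespace Vale.Agent.P242

open MeasureTheory Set Metric
open scoped ENNReal ContDiff RealInnerProductSpace

noncomputable section

variable {n : ℕ}

/-- Directional derivative; `pd i f = D (EuclideanSpace.single i 1) f` by `rfl`. -/
def D (v : E n) (f : E n → ℝ) (x : E n) : ℝ := fderiv ℝ f x v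

/-- Euler operator. -/
def eu (f : E n → ℝ) (x : E n) : ℝ := fderiv ℝ f x x

/-- The linear part of the Ricci tensor. -/
def mu (w : E n → ℝ) (x u v : E n) : ℝ := -((n : ℝ) - 2) * D u (D v w) x - lap w x * ⟪u, v⟫

/-- The linear inequality on the ball of radius 4. -/
def Lin (w : E n → ℝ) : Prop := ∀ x ∈ ball (0 : E n) 4, ∀ v, 0 ≤ mu w x v v

/-- Smooth, with the linear inequality on the closed ball of radius 3. -/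
def Pos (W : E n → ℝ) : Prop := ContDiff ℝ ∞ W ∧ ∀ p : E n, ‖p‖ ≤ 3 → ∀ v, 0 ≤ mu W p v v

/-- Smooth profile vanishing right of `b`. -/
def Prof (b : ℝ) (g : ℝ → ℝ) : Prop := ContDiff ℝ ∞ g ∧ ∀ s, b ≤ s → g s = 0

/-- Integral against a radial kernel. -/
def I (g : ℝ → ℝ) (f : E n → ℝ) : ℝ := ∫ p : E n, f p * g (‖p‖ ^ 2)

/-- Rescaled function. -/
def sc (f : E n → ℝ) (x : E n) (r : ℝ) (p : E n) : ℝ := f (x + r • p)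

/-- Average at point `q.1` and scale `q.2`. -/
def av (g : ℝ → ℝ) (f : E n → ℝ) (q : E n × ℝ) : ℝ := I g (sc f q.1 q.2)

/-- The kernel of the gauge field. -/
def kap (n : ℕ) (ψ : ℝ → ℝ) (s : ℝ) : ℝ :=
  (((n : ℝ) - 2) * (4 * s ^ 2 * deriv (deriv ψ) s + (4 * n - 2) * s * deriv ψ s +
    ((n : ℝ) - 1) * (n - 2) * ψ s) + 4 * s ^ 2 * deriv (deriv ψ) s + 2 * n * s * deriv ψ s -
    2 * n * ψ s) / 2

/-- The averaging kernel. -/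
def eta (ψ : ℝ → ℝ) (s : ℝ) : ℝ := -2 * deriv ψ s

/-- The pinching. -/
def de (φ : ℝ → ℝ) (W : E n → ℝ) : ℝ := I (fun s => -deriv φ s) fun p => mu W p p p

/-- The error of the gauge. -/
def er (ψ : ℝ → ℝ) (W : E n → ℝ) (v : E n) : ℝ :=
  ∫ p : E n, mu W p p p *
    (2 * deriv ψ (‖p‖ ^ 2) * ‖v‖ ^ 2 + 4 * deriv (deriv ψ) (‖p‖ ^ 2) * ⟪p, v⟫ ^ 2)

/-- The profiles. -/
structure Kit (n : ℕ) where
  ψ : ℝ → ℝ
  φ : ℝ → ℝ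
  χ : ℝ → ℝ
  g : ℝ → ℝ
  hψ : Prof 1 ψ
  hφ : Prof 4 φ
  hχ : Prof 9 χ
  hg : Prof 1 g
  dg : ∀ s, kap n ψ s = -2 * deriv g s
  one : I (eta ψ) (fun _ : E n => 1) = 1
  φ0 : ∀ s, 0 ≤ φ s
  φ1 : ∀ s, deriv φ s ≤ 0
  φ2 : ∀ s, s ≤ 1 → deriv φ s ≤ -1
  χ0 : ∀ s, 0 ≤ χ s
  χ1 : ∀ s, deriv χ s ≤ 0
  χ2 : ∀ s, s ≤ 4 → 1 ≤ χ s

/-- The density. -/
def th (K : Kit n) (W : E n → ℝ) : ℝ := -I K.χ (lap W)

/-- Scale times the averaged gradient. -/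
def Y (k : ℝ → ℝ) (w : E n → ℝ) (q : E n × ℝ) : E n :=
  q.2 • ∑ i, av k (pd i w) q • EuclideanSpace.single i (1 : ℝ)

/-- The monotone density. -/
def M (φ : ℝ → ℝ) (w : E n → ℝ) (q : E n × ℝ) : ℝ := -(q.2 ^ 2 * av φ (lap w) q)

/-- The Lyapunov function. -/
def Ly (K : Kit n) (w : E n → ℝ) (q : E n × ℝ) : ℝ :=
  M K.φ w q + ‖Y (eta K.ψ) w q‖ ^ 2 + ‖Y (kap n K.ψ) w q‖ ^ 2

/-- The data of the gauge flow. -/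
structure Gauge (w : E n → ℝ) (R C : ℝ) (Z : E n × ℝ → E n) (a L : E n × ℝ → ℝ) : Prop where
  R0 : 0 < R
  R1 : R ≤ 1
  C0 : 0 ≤ C
  smZ : ContDiff ℝ 2 Z
  sma : ContDiff ℝ 1 a
  smL : ContDiff ℝ 1 L
  a0 : ∀ x, a (x, 0) = w x
  aR : ∀ x ∈ ball (0 : E n) 1, |a (x, R)| ≤ C
  bZ : ∀ x ∈ ball (0 : E n) 1, ∀ r ∈ Icc 0 R, ‖Z (x, r)‖ ≤ 1 / 10
  bL : ∀ x ∈ ball (0 : E n) 1, ∀ r ∈ Icc 0 R, 0 ≤ L (x, r) ∧ L (x, r) ≤ 1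
  key : ∀ x ∈ ball (0 : E n) 1, ∀ r ∈ Ioo 0 R, ∀ v : E n,
    |fderiv ℝ a (x, r) (Z (x, r), 1) * ‖v‖ ^ 2 + ⟪v, fderiv ℝ Z (x, r) (v, 0)⟫| ≤
      C * fderiv ℝ L (x, r) (Z (x, r), 1) * ‖v‖ ^ 2

/-- A trajectory of the gauge field inside the ball of radius 9/10. -/
structure Traj (Z : E n × ℝ → E n) (R : ℝ) (x : ℝ → E n) : Prop where
  mem : ∀ r ∈ Icc 0 R, ‖x r‖ ≤ 9 / 10
  der : ∀ r ∈ Icc 0 R, HasDerivWithinAt x (Z (x r, r)) (Icc 0 R) r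

/-- The time `R` map and its inverse. -/
structure FlowD (w : E n → ℝ) (A η : ℝ) (Φ G : E n → E n) : Prop where
  mv : ∀ x ∈ ball (0 : E n) (4 / 5), ‖Φ x - x‖ ≤ 1 / 10 ∧ ‖G x - x‖ ≤ 1 / 10
  inv : ∀ x ∈ ball (0 : E n) (3 / 5), G (Φ x) = x ∧ Φ (G x) = x
  up : ∀ x ∈ ball (0 : E n) (4 / 5), ∀ y ∈ ball (0 : E n) (4 / 5), ‖x - y‖ ≤ η →
    ‖Φ x - Φ y‖ ≤ A * Real.exp (w x) * ‖x - y‖
  lo : ∀ a ∈ ball (0 : E n) (4 / 5), ∀ b ∈ ball (0 : E n) (4 / 5), ‖a - b‖ ≤ η →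
    Real.exp (w (G a)) * ‖G a - G b‖ ≤ A * ‖a - b‖

end

end Vale.Agent.P242
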